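import Vale.Agent.P067.Alld.E.Expands

/-!
P067, module E: links in a coset complex. The link is carried to the link at the base chamber, and
there it splits as a join when the group of the common types splits.
-/

set_option linter.unusedSectionVars false

namespace Vale.Agent.P067.Alld.LinkE

open Finset Vale.Agent.P067.Sparse
open Vale.Agent.P067.Full.Opp (IsContr)

variable {G : Type} [Group G] {n : ℕ} {H : Fin n → Subgroup G}

theorem pt_eq_pt_iff {g g' : G} {l : Fin n} : pt H g l = pt H g' l ↔ g⁻¹ * g' ∈ H l := by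
  rw [pt, pt, Sigma.mk.injEq, heq_eq_eq, QuotientGroup.eq]
  exact and_iff_right rfl

theorem pt_injective (g : G) : Function.Injective (pt H g) := fun _ _ h => congrArg Sigma.fst h

theorem pt_mul_of_mem {g u : G} {l : Fin n} (hu : u ∈ H l) : pt H (g * u) l = pt H g l :=
  pt_eq_pt_iff.2 (by simpa using hu)

theorem mem_inter {E : Finset (Fin n)} {g : G} : g ∈ inter H E ↔ ∀ l ∈ E, g ∈ H l := by
  simp [inter, Subgroup.mem_iInf]

/-- Left translation of the vertices. -/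
def trans' (h : G) : Equiv.Perm (Vert H) := Equiv.sigmaCongrRight fun _ => MulAction.toPerm h

theorem trans'_pt (h g : G) (l : Fin n) : trans' (H := H) h (pt H g l) = pt H (h * g) l := rfl

theorem trans'_fst (h : G) (v : Vert H) : (trans' (H := H) h v).1 = v.1 := rfl

/-- A face of the link of the face of `g` with types `S`. -/
def LFace (H : Fin n → Subgroup G) (S : Finset (Fin n)) (g : G) (σ : Finset (Vert H)) : Prop :=
  ∃ u ∈ inter H S, ∀ v ∈ σ, v.1 ∉ S ∧ v = pt H (g * u) v.1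

theorem LFace.mono {S : Finset (Fin n)} {g : G} {σ τ : Finset (Vert H)} (h : LFace H S g σ)
    (hτ : τ ⊆ σ) : LFace H S g τ :=
  let ⟨u, hu, hσ⟩ := h
  ⟨u, hu, fun v hv => hσ v (hτ hv)⟩

variable [DecidableEq (Vert H)]

theorem trans'_lface {S : Finset (Fin n)} {g : G} (h : G) {σ : Finset (Vert H)} :
    LFace H S (h * g) (σ.image (trans' (H := H) h)) ↔ LFace H S g σ := by
  refine exists_congr fun u => and_congr_right fun _ => ?_
  rw [forall_mem_image]
  refine forall₂_congr fun v _ => and_congr (by rw [trans'_fst]) ?_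
  rw [trans'_fst, mul_assoc, ← trans'_pt, Equiv.apply_eq_iff_eq]

variable [Finite G] [Fintype (Vert H)]

theorem mem_tops {t : Finset (Vert H)} : t ∈ tops H ↔ ∃ g, t = univ.image (pt H g) := by
  simp only [tops, Set.Finite.mem_toFinset, Set.mem_range]
  refine exists_congr fun g => ?_
  rw [eq_comm]
  exact Iff.of_eq (congrArg (t = ·) (by ext; simp))

theorem exists_eq_image {s : Finset (Vert H)} (hs : s ∈ face (tops H) s.card) :
    ∃ g, s = (s.image Sigma.fst).image (pt H g) := by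
  obtain ⟨t, ht, hst⟩ := mem_biUnion.1 hs
  obtain ⟨g, rfl⟩ := mem_tops.1 ht
  refine ⟨g, Finset.ext fun v => ⟨fun hv => ?_, fun hv => ?_⟩⟩
  · obtain ⟨l, -, rfl⟩ := mem_image.1 ((mem_powersetCard.1 hst).1 hv)
    exact mem_image.2 ⟨l, mem_image.2 ⟨_, hv, rfl⟩, rfl⟩
  · obtain ⟨l, hl, rfl⟩ := mem_image.1 hv
    obtain ⟨w, hw, rfl⟩ := mem_image.1 hl
    obtain ⟨l', -, rfl⟩ := mem_image.1 ((mem_powersetCard.1 hst).1 hw)
    exact hw

theorem mem_link {S : Finset (Fin n)} {g : G} {t : Finset (Vert H)} :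
    t ∈ link (tops H) (S.image (pt H g)) ↔ ∃ u ∈ inter H S, t = Sᶜ.image (pt H (g * u)) := by
  classical
  have key : ∀ u ∈ inter H S,
      univ.image (pt H (g * u)) \ S.image (pt H g) = Sᶜ.image (pt H (g * u)) := fun u hu => by
    rw [image_congr (s := S) (f := pt H g) (g := pt H (g * u))
      fun l hl => (pt_mul_of_mem (mem_inter.1 hu l hl)).symm,
      ← image_sdiff_of_injOn (pt_injective _).injOn (subset_univ _), compl_eq_univ_sdiff]
  simp only [link, mem_image, mem_filter, mem_tops]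
  constructor
  · rintro ⟨t, ⟨⟨g', rfl⟩, hsub⟩, rfl⟩
    have hu : g⁻¹ * g' ∈ inter H S := mem_inter.2 fun l hl => by
      obtain ⟨l', -, e⟩ := mem_image.1 (hsub (mem_image_of_mem _ hl))
      obtain rfl : l' = l := congrArg Sigma.fst e
      exact pt_eq_pt_iff.1 e.symm
    refine ⟨_, hu, ?_⟩
    rw [← key _ hu, mul_inv_cancel_left]
  · rintro ⟨u, hu, rfl⟩
    refine ⟨univ.image (pt H (g * u)), ⟨⟨_, rfl⟩, fun v hv => ?_⟩, key u hu⟩
    obtain ⟨l, hl, rfl⟩ := mem_image.1 hv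
    exact mem_image.2 ⟨l, mem_univ _, pt_mul_of_mem (mem_inter.1 hu l hl)⟩

theorem mem_faces_link {S : Finset (Fin n)} {g : G} {σ : Finset (Vert H)} {m : ℕ} :
    σ ∈ faces (link (tops H) (S.image (pt H g))) m ↔ LFace H S g σ ∧ σ.card = m := by
  simp only [faces, mem_filter, mem_univ, true_and]
  rw [and_comm, and_congr_left_iff]
  intro _
  constructor
  · rintro ⟨t, ht, hσ⟩
    obtain ⟨u, hu, rfl⟩ := mem_link.1 ht
    refine ⟨u, hu, fun v hv => ?_⟩
    obtain ⟨l, hl, rfl⟩ := mem_image.1 (hσ hv)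
    exact ⟨mem_compl.1 hl, rfl⟩
  · rintro ⟨u, hu, hσ⟩
    refine ⟨Sᶜ.image (pt H (g * u)), mem_link.2 ⟨u, hu, rfl⟩, fun v hv => ?_⟩
    exact mem_image.2 ⟨v.1, mem_compl.2 (hσ v hv).1, (hσ v hv).2.symm⟩

theorem transitive_link {S : Finset (Fin n)} {g : G} {t t' : Finset (Vert H)}
    (ht : t ∈ link (tops H) (S.image (pt H g))) (ht' : t' ∈ link (tops H) (S.image (pt H g))) :
    ∃ e ∈ autF (link (tops H) (S.image (pt H g))), t.image e = t' := by
  obtain ⟨u, hu, rfl⟩ := mem_link.1 ht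
  obtain ⟨u', hu', rfl⟩ := mem_link.1 ht'
  have himg : ∀ (h w : G) (J : Finset (Fin n)), (J.image (pt H w)).image (trans' (H := H) h) =
      J.image (pt H (h * w)) := fun h w J => by rw [image_image]; rfl
  have hfwd : ∀ c ∈ inter H S, ∀ x ∈ link (tops H) (S.image (pt H g)),
      x.image (trans' (H := H) (g * c * g⁻¹)) ∈ link (tops H) (S.image (pt H g)) := by
    intro c hc x hx
    obtain ⟨w, hw, rfl⟩ := mem_link.1 hx
    refine mem_link.2 ⟨c * w, mul_mem hc hw, ?_⟩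
    rw [himg, show g * c * g⁻¹ * (g * w) = g * (c * w) by group]
  refine ⟨trans' (H := H) (g * (u' * u⁻¹) * g⁻¹), mem_autF.2 fun x => ⟨hfwd _
    (mul_mem hu' (inv_mem hu)) x, fun hx => ?_⟩, ?_⟩
  · have h := hfwd _ (inv_mem (mul_mem hu' (inv_mem hu))) _ hx
    rw [image_image] at h
    have e : (trans' (H := H) (g * (u' * u⁻¹)⁻¹ * g⁻¹) ∘ trans' (H := H) (g * (u' * u⁻¹) * g⁻¹)) =
        id := funext fun v => by
      obtain ⟨l, q⟩ := v
      exact Sigma.ext rfl (heq_of_eq (by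
        show (g * (u' * u⁻¹)⁻¹ * g⁻¹) • (g * (u' * u⁻¹) * g⁻¹) • q = q
        rw [smul_smul, show g * (u' * u⁻¹)⁻¹ * g⁻¹ * (g * (u' * u⁻¹) * g⁻¹) = 1 by group, one_smul]))
    rwa [e, image_id] at h
  · rw [himg, show g * (u' * u⁻¹) * g⁻¹ * (g * u) = g * u' by group]

/-- Expansion of a link from a contraction at the base chamber. -/
theorem link_expands {S : Finset (Fin n)} {g : G} {d M k : ℕ} {Hm : Ch (Vert H) →ₗ[ZMod 2] Ch (Vert H)}
    (h : IsContr (LFace H S 1) d M Hm) (hk : k ≤ d) (hS : S.card + k < n) :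
    Expands (link (tops H) (S.image (pt H g))) k (1 / (2 ^ n * ((M : ℝ) + 1))) := by
  classical
  obtain ⟨H', h'⟩ := contr_transfer (P' := LFace H S g) h (trans' (H := H) g⁻¹) (trans' (H := H) g)
    (fun σ hσ => ⟨by rw [← trans'_lface g⁻¹, inv_mul_cancel] at hσ; exact hσ, fun v _ => by
      simp [trans', Equiv.sigmaCongrRight]⟩)
    (fun σ hσ => ⟨by rw [← trans'_lface g, mul_one] at hσ; exact hσ, fun v _ => by
      simp [trans', Equiv.sigmaCongrRight]⟩)
  have hT : ∀ t ∈ link (tops H) (S.image (pt H g)), t.card = n - S.card := fun t ht => by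
    obtain ⟨u, -, rfl⟩ := mem_link.1 ht
    rw [card_image_of_injective _ (pt_injective _), card_compl, Fintype.card_fin]
  have hc : Contraction (link (tops H) (S.image (pt H g))) k M H' H' := by
    intro σ hσ
    obtain ⟨hP, hcd⟩ := mem_faces_link.1 hσ
    obtain ⟨h1, h2, h3⟩ := h' σ hP (hcd ▸ hk)
    exact ⟨fun τ hτ => mem_faces_link.2 ⟨(h1 τ hτ).1, by rw [(h1 τ hτ).2, hcd]⟩, h2, h3⟩
  intro f
  obtain ⟨a, ha⟩ := expands_of_contraction hT (by omega)
    (fun t ht t' ht' => transitive_link ht ht') hc f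
  refine ⟨a, le_trans ?_ ha⟩
  gcongr
  · norm_num
  · omega

/-- The types of the big block. -/
def Block (H : Fin n → Subgroup G) (L : Subgroup G) (J : Finset (Fin n))
    (σ : Finset (Vert H)) : Prop :=
  ∃ a ∈ L, ∀ v ∈ σ, v.1 ∈ J ∧ v = pt H a v.1

/-- The link at the base chamber is a join, so a contraction of one block contracts it. -/
theorem contr_link_of_block {S J : Finset (Fin n)} {L₁ L₂ : Subgroup G} {d M : ℕ}
    {H₁ : Ch (Vert H) →ₗ[ZMod 2] Ch (Vert H)} (hJ : Disjoint J S)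
    (hL₁ : L₁ ≤ inter H Jᶜ) (hL₂ : L₂ ≤ inter H (S ∪ J))
    (hcomm : ∀ a ∈ L₁, ∀ b ∈ L₂, a * b = b * a)
    (hdec : ∀ u ∈ inter H S, ∃ a ∈ L₁, ∃ b ∈ L₂, u = a * b)
    (h : IsContr (Block H L₁ J) d M H₁) : ∃ H', IsContr (LFace H S 1) d M H' := by
  classical
  let Q : Finset (Vert H) → Prop := fun σ => ∃ b ∈ L₂, ∀ v ∈ σ, (v.1 ∉ J ∧ v.1 ∉ S) ∧ v = pt H b v.1
  have hA : ∀ a ∈ L₁, ∀ l, l ∉ J → a ∈ H l := fun a ha l hl =>
    mem_inter.1 (hL₁ ha) l (mem_compl.2 hl)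
  have hB : ∀ b ∈ L₂, ∀ l, l ∈ J ∨ l ∈ S → b ∈ H l := fun b hb l hl =>
    mem_inter.1 (hL₂ hb) l (mem_union.2 hl.symm)
  obtain ⟨H', h'⟩ := h.join (Q := Q) (fun v => v.1 ∈ J) (fun σ ⟨_, _, hσ⟩ v hv => (hσ v hv).1)
    (fun σ ⟨_, _, hσ⟩ v hv => (hσ v hv).1.1)
  have hiff : (fun σ => Block H L₁ J (σ.filter fun v => v.1 ∈ J) ∧
      Q (σ.filter fun v => ¬ v.1 ∈ J)) = LFace H S 1 := by
    funext σ
    refine propext ⟨?_, ?_⟩
    · rintro ⟨⟨a, ha, hσa⟩, b, hb, hσb⟩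
      refine ⟨a * b, mul_mem (mem_inter.2 fun l hl => hA a ha l (disjoint_right.1 hJ hl))
        (mem_inter.2 fun l hl => hB b hb l (Or.inr hl)), fun v hv => ?_⟩
      rw [one_mul]
      by_cases hvJ : v.1 ∈ J
      · obtain ⟨h1, h2⟩ := hσa v (mem_filter.2 ⟨hv, hvJ⟩)
        exact ⟨disjoint_left.1 hJ hvJ, by rw [pt_mul_of_mem (hB b hb _ (Or.inl hvJ))]; exact h2⟩
      · obtain ⟨h1, h2⟩ := hσb v (mem_filter.2 ⟨hv, hvJ⟩)
        exact ⟨h1.2, by rw [hcomm a ha b hb, pt_mul_of_mem (hA a ha _ hvJ)]; exact h2⟩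
    · rintro ⟨u, hu, hσ⟩
      obtain ⟨a, ha, b, hb, rfl⟩ := hdec u hu
      refine ⟨⟨a, ha, fun v hv => ?_⟩, b, hb, fun v hv => ?_⟩
      · obtain ⟨hv, hvJ⟩ := mem_filter.1 hv
        have h2 := (hσ v hv).2
        rw [one_mul, pt_mul_of_mem (hB b hb _ (Or.inl hvJ))] at h2
        exact ⟨hvJ, h2⟩
      · obtain ⟨hv, hvJ⟩ := mem_filter.1 hv
        have h2 := (hσ v hv).2
        rw [one_mul, hcomm a ha b hb, pt_mul_of_mem (hA a ha _ hvJ)] at h2
        exact ⟨⟨hvJ, (hσ v hv).1⟩, h2⟩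
  exact ⟨H', hiff ▸ h'⟩

end Vale.Agent.P067.Alld.LinkE
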