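import Vale.Agent.P067.Alld.A.Basic
import Vale.Agent.P067.Alld.E.Link
import Vale.Agent.P067.Full.Opp.Chambers

/-!
P067, module E: one cyclic interval of types in the link is the opposite complex of type A.
-/

set_option linter.unusedSectionVars false

namespace Vale.Agent.P067.Alld.LinkE

open Finset Module Vale.Agent.P067.Sparse
open Vale.Agent.P067.Full.Opp

section Coordinates

variable (F : Type) [Field F] (w : ℕ)

/-- The vectors supported on `s`. -/
def coord (s : Finset (Fin w)) : Submodule F (Fin w → F) where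
  carrier := {v | ∀ i ∉ s, v i = 0}
  add_mem' hv hv' i hi := by simp [hv i hi, hv' i hi]
  zero_mem' _ _ := rfl
  smul_mem' a v hv i hi := by simp [hv i hi]

/-- The standard flag. -/
def flagC (j : ℕ) : Submodule F (Fin w → F) := coord F w (univ.filter fun i => w ≤ i.val + j)

/-- The standard opposite subspaces. -/
def stdW (r : ℕ) : Submodule F (Fin w → F) := coord F w (univ.filter fun i => i.val < r)

variable {F w}

theorem mem_coord {s : Finset (Fin w)} {v : Fin w → F} : v ∈ coord F w s ↔ ∀ i ∉ s, v i = 0 :=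
  Iff.rfl

theorem finrank_coord (s : Finset (Fin w)) : finrank F (coord F w s) = s.card := by
  let e : coord F w s ≃ₗ[F] (s → F) :=
    { toFun := fun v i => v.1 i
      invFun := fun u => ⟨fun i => if h : i ∈ s then u ⟨i, h⟩ else 0, fun i hi => dif_neg hi⟩
      map_add' := fun _ _ => rfl
      map_smul' := fun _ _ => rfl
      left_inv := fun v => Subtype.ext (funext fun i => by
        by_cases h : i ∈ s
        · simp [h]
        · simp [h, v.2 i h])
      right_inv := fun u => funext fun i => by simp [i.2] }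
  rw [e.finrank_eq, Module.finrank_pi, Fintype.card_coe]

theorem card_filter_lt {r : ℕ} (hr : r ≤ w) :
    (univ.filter fun i : Fin w => i.val < r).card = r := by
  rw [← card_map Fin.valEmbedding, show (univ.filter fun i : Fin w => i.val < r).map Fin.valEmbedding =
    range r from ?_, card_range]
  ext i
  simp only [mem_map, mem_filter, mem_univ, true_and, Fin.valEmbedding_apply, mem_range]
  exact ⟨fun ⟨j, hj, e⟩ => e ▸ hj, fun hi => ⟨⟨i, by omega⟩, hi, rfl⟩⟩

theorem finrank_stdW {r : ℕ} (hr : r ≤ w) : finrank F (stdW F w r) = r := by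
  rw [stdW, finrank_coord, card_filter_lt hr]

theorem isFlag_flagC : IsFlag (flagC F w) w := by
  refine ⟨fun j j' hj v hv i hi => hv i ?_, fun j hj => ?_⟩
  · simp only [mem_filter, mem_univ, true_and] at hi ⊢
    omega
  · rw [flagC, finrank_coord]
    have h := card_filter_add_card_filter_not (s := (univ : Finset (Fin w)))
      (fun i => w ≤ i.val + j)
    have e : (univ.filter fun i : Fin w => ¬ w ≤ i.val + j) =
        univ.filter fun i : Fin w => i.val < w - j :=
      filter_congr fun i _ => by omega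
    rw [e, card_filter_lt (Nat.sub_le _ _), card_univ, Fintype.card_fin] at h
    omega

theorem flagC_top : flagC F w w = ⊤ := by
  refine eq_top_iff.2 fun v _ i hi => absurd ?_ hi
  simp

theorem ovtx_stdW {r : ℕ} (h0 : 0 < r) (hr : r < w) : OVtx (flagC F w) w (stdW F w r) := by
  have hd := finrank_stdW (F := F) hr.le
  refine ⟨flagC_top (F := F) ▸ le_top, fun h => ?_, by omega, ?_⟩
  · rw [h, finrank_bot] at hd
    omega
  · rw [hd, Submodule.disjoint_def]
    intro v hv hv'
    funext i
    by_cases hi : i.val < r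
    · exact hv' i (by simp only [mem_filter, mem_univ, true_and]; omega)
    · exact hv i (by simp [hi])

theorem lowerSet_iff_pat (h0 : 0 < w) {A : Matrix (Fin w) (Fin w) F} :
    A ∈ lowerSet F w ↔ Pat {⟨w - 1, by omega⟩} A := by
  have hrot : ∀ i : Fin w, rot ⟨w - 1, by omega⟩ i = i := fun i => Fin.ext (by
    rw [rot_val]
    have := i.isLt
    simp only
    split_ifs <;> omega)
  refine and_congr Iff.rfl ⟨fun h i j hij hb => h i j ?_, fun h i j hij => h i j hij.ne ?_⟩
  · rw [below_singleton, hrot, hrot, not_lt] at hb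
    exact hb.lt_of_ne hij
  · rw [below_singleton, hrot, hrot, not_lt]
    exact hij.le

theorem lowerSet_mul {A B : Matrix (Fin w) (Fin w) F} (h0 : 0 < w) (hA : A ∈ lowerSet F w)
    (hB : B ∈ lowerSet F w) : A * B ∈ lowerSet F w :=
  (lowerSet_iff_pat h0).2 (((lowerSet_iff_pat h0).1 hA).mul (singleton_nonempty _)
    ((lowerSet_iff_pat h0).1 hB))

theorem lowerSet_inv {A : Matrix (Fin w) (Fin w) F} (h0 : 0 < w) (hA : A ∈ lowerSet F w) :
    A⁻¹ ∈ lowerSet F w :=
  (lowerSet_iff_pat h0).2 (((lowerSet_iff_pat h0).1 hA).inv (singleton_nonempty _))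

theorem isUnit_det {A : Matrix (Fin w) (Fin w) F} (h0 : 0 < w) (hA : A ∈ lowerSet F w) :
    IsUnit A.det := by
  rw [((lowerSet_iff_pat h0).1 hA).det (singleton_nonempty _)]
  exact isUnit_one

/-- A unitriangular matrix as a linear equivalence. -/
noncomputable def lowEquiv {A : Matrix (Fin w) (Fin w) F} (h0 : 0 < w) (hA : A ∈ lowerSet F w) :
    (Fin w → F) ≃ₗ[F] (Fin w → F) :=
  Matrix.toLin'OfInv (Matrix.nonsing_inv_mul A (isUnit_det h0 hA))
    (Matrix.mul_nonsing_inv A (isUnit_det h0 hA))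

theorem lowEquiv_coe {A : Matrix (Fin w) (Fin w) F} (h0 : 0 < w) (hA : A ∈ lowerSet F w) :
    (lowEquiv h0 hA : (Fin w → F) →ₗ[F] (Fin w → F)) = Matrix.toLin' A := rfl

theorem map_flagC {A : Matrix (Fin w) (Fin w) F} (h0 : 0 < w) (hA : A ∈ lowerSet F w) (j : ℕ) :
    (flagC F w j).map (lowEquiv h0 hA : (Fin w → F) →ₗ[F] (Fin w → F)) = flagC F w j := by
  refine Submodule.eq_of_le_of_finrank_eq (Submodule.map_le_iff_le_comap.2 fun v hv i hi => ?_)
    (LinearEquiv.finrank_map_eq _ _)
  rw [lowEquiv_coe, Matrix.toLin'_apply, Matrix.mulVec, dotProduct]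
  refine sum_eq_zero fun k _ => ?_
  rcases lt_or_ge i k with h | h
  · rw [hA.2 i k h, zero_mul]
  · rw [hv k (by simp only [mem_filter, mem_univ, true_and] at hi ⊢; have : k.val ≤ i.val := h; omega),
      mul_zero]

theorem map_stdW_le_iff {C : Matrix (Fin w) (Fin w) F} {r : ℕ} :
    (stdW F w r).map (Matrix.toLin' C) ≤ stdW F w r ↔
      ∀ i j : Fin w, j.val < r → r ≤ i.val → C i j = 0 := by
  refine ⟨fun h i j hj hi => ?_, fun h => Submodule.map_le_iff_le_comap.2 fun v hv i hi => ?_⟩
  · have hmem : Pi.single j (1 : F) ∈ stdW F w r := fun k hk => Pi.single_eq_of_ne (fun e => hk (by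
      simp [e, hj])) _
    have h' := h ⟨_, hmem, rfl⟩ i (by simp only [mem_filter, mem_univ, true_and]; omega)
    rwa [Matrix.toLin'_apply, Matrix.mulVec_single_one] at h'
  · rw [Matrix.toLin'_apply, Matrix.mulVec, dotProduct]
    refine sum_eq_zero fun k _ => ?_
    simp only [mem_filter, mem_univ, true_and, not_lt] at hi
    by_cases hk : k.val < r
    · rw [h i k hk hi, zero_mul]
    · rw [hv k (by simp [hk]), mul_zero]

theorem map_stdW_eq_iff {A B : Matrix (Fin w) (Fin w) F} (h0 : 0 < w) (hA : A ∈ lowerSet F w)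
    (hB : B ∈ lowerSet F w) {r : ℕ} :
    (stdW F w r).map (Matrix.toLin' A) = (stdW F w r).map (Matrix.toLin' B) ↔
      ∀ i j : Fin w, j.val < r → r ≤ i.val → (A⁻¹ * B) i j = 0 := by
  rw [← map_stdW_le_iff]
  have e : B = A * (A⁻¹ * B) := (Matrix.mul_nonsing_inv_cancel_left A B (isUnit_det h0 hA)).symm
  have hinj : Function.Injective (Matrix.toLin' A) := (lowEquiv h0 hA).injective
  conv_lhs => rw [e, Matrix.toLin'_mul, Submodule.map_comp,
    (Submodule.map_injective_of_injective hinj).eq_iff]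
  refine ⟨fun h => h.ge, fun h => (Submodule.eq_of_le_of_finrank_eq h ?_).symm⟩
  exact LinearEquiv.finrank_map_eq
    (lowEquiv h0 (lowerSet_mul h0 (lowerSet_inv h0 hA) hB)) _

end Coordinates

section Pos

variable {n w : ℕ} (a : Fin n) (hw : w ≤ n)

/-- The first `w` positions of the order of type `a`, and the others. -/
noncomputable def split : Fin n ≃ Fin w ⊕ Fin (n - w) :=
  ((rotEquiv a).trans (finCongr (show n = w + (n - w) by omega))).trans finSumFinEquiv.symm

theorem split_symm_inl (i : Fin w) : (rot a ((split a hw).symm (Sum.inl i)) : ℕ) = i := by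
  simp [split, ← rotEquiv_apply]

theorem split_symm_inr (i : Fin (n - w)) :
    (rot a ((split a hw).symm (Sum.inr i)) : ℕ) = w + i := by
  simp [split, ← rotEquiv_apply]

theorem rot_lt_iff_between {l x y : Fin n} (h : rot a y < rot a x) :
    rot l y < rot l x ↔ ¬ ((rot a y : ℕ) ≤ rot a l ∧ (rot a l : ℕ) < rot a x) := by
  rw [rot_lt_iff] at h ⊢
  rw [rot_val, rot_val, rot_val]
  have := a.isLt; have := l.isLt; have := x.isLt; have := y.isLt
  split_ifs <;> omega

end Pos

variable {F : Type} [Field F] {n w : ℕ} {R : Type} [CommRing R] [Algebra F R] {t : R}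
  {S : Finset (Fin n)} {a : Fin n} (hw : w ≤ n)

/-- The types strictly inside the block. -/
noncomputable def blockTypes (a : Fin n) (w : ℕ) : Finset (Fin n) :=
  univ.filter fun l => (rot a l : ℕ) + 1 < w

/-- A matrix on the block, extended by the identity. -/
noncomputable def blkA (a : Fin n) (A : Matrix (Fin w) (Fin w) F) : Matrix (Fin n) (Fin n) F :=
  (Matrix.fromBlocks A 0 0 1).submatrix (split a hw) (split a hw)

/-- A matrix outside the block, extended by the identity. -/
noncomputable def blkD (a : Fin n) (D : Matrix (Fin (n - w)) (Fin (n - w)) F) :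
    Matrix (Fin n) (Fin n) F :=
  (Matrix.fromBlocks 1 0 0 D).submatrix (split a hw) (split a hw)

theorem mem_blockTypes {l : Fin n} : l ∈ blockTypes a w ↔ (rot a l : ℕ) + 1 < w := by
  simp [blockTypes]

theorem disjoint_blockTypes (hi : ∀ b ∈ S, w ≤ (rot a b : ℕ) + 1) :
    Disjoint (blockTypes a w) S :=
  disjoint_left.2 fun l hl hl' => by have := hi l hl'; have := mem_blockTypes.1 hl; omega

theorem blkA_mul (A B : Matrix (Fin w) (Fin w) F) :
    blkA hw a A * blkA hw a B = blkA hw a (A * B) := by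
  rw [blkA, blkA, blkA, Matrix.submatrix_mul_equiv, Matrix.fromBlocks_multiply]
  simp

theorem blk_comm (A : Matrix (Fin w) (Fin w) F) (D : Matrix (Fin (n - w)) (Fin (n - w)) F) :
    blkA hw a A * blkD hw a D = blkD hw a D * blkA hw a A := by
  rw [blkA, blkD, Matrix.submatrix_mul_equiv, Matrix.submatrix_mul_equiv,
    Matrix.fromBlocks_multiply, Matrix.fromBlocks_multiply]
  simp

/-- A pattern of the block is a pattern of every type outside its inside. -/
theorem pat_blkA {E : Finset (Fin n)} {A : Matrix (Fin w) (Fin w) F} (hA : A ∈ lowerSet F w)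
    (hE : ∀ l ∈ E, ∀ i j : Fin w, (j : ℕ) ≤ rot a l → (rot a l : ℕ) < i → A i j = 0) :
    Pat E (blkA hw a A) := by
  refine ⟨fun x => ?_, fun x y hxy hb => ?_⟩
  · simp only [blkA, Matrix.submatrix_apply]
    rcases split a hw x with i | i <;> simp [hA.1]
  · obtain ⟨u, rfl⟩ := (split a hw).symm.surjective x
    obtain ⟨v, rfl⟩ := (split a hw).symm.surjective y
    simp only [blkA, Matrix.submatrix_apply, Equiv.apply_symm_apply]
    rcases u with i | i <;> rcases v with j | j
    · simp only [Matrix.fromBlocks_apply₁₁]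
      rcases lt_or_ge i j with h | h
      · exact hA.2 i j h
      · have hne : i ≠ j := fun e => hxy (by rw [e])
        have hlt : (j : ℕ) < i := lt_of_le_of_ne h fun e => hne (Fin.ext e).symm
        simp only [Below, not_forall] at hb
        obtain ⟨l, hl, hb⟩ := hb
        rw [rot_lt_iff_between a (Fin.lt_def.2 (by simpa [split_symm_inl] using hlt)),
          split_symm_inl, split_symm_inl, not_not] at hb
        exact hE l hl i j hb.1 hb.2
    · simp
    · simp
    · simp only [Matrix.fromBlocks_apply₂₂]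
      exact Matrix.one_apply_ne fun e => hxy (by rw [e])

theorem pat_blkA_of_outside {E : Finset (Fin n)} {A : Matrix (Fin w) (Fin w) F}
    (hA : A ∈ lowerSet F w) (hE : ∀ l ∈ E, w ≤ (rot a l : ℕ) + 1) : Pat E (blkA hw a A) :=
  pat_blkA hw hA fun l hl i j _ h2 => by have := hE l hl; have := i.isLt; omega

theorem pat_block_entries {l : Fin n} {A : Matrix (Fin w) (Fin w) F}
    (h : Pat {l} (blkA hw a A)) {i j : Fin w} (h1 : (j : ℕ) ≤ rot a l) (h2 : (rot a l : ℕ) < i) :
    A i j = 0 := by
  have hne : (split a hw).symm (Sum.inl i) ≠ (split a hw).symm (Sum.inl j) := fun e => by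
    have := congrArg Sum.getLeft? ((split a hw).symm.injective e)
    simp at this
    omega
  have hb := h.2 _ _ hne (by
    rw [below_singleton, rot_lt_iff_between a (Fin.lt_def.2 (by
      rw [split_symm_inl, split_symm_inl]; omega)), not_not, split_symm_inl, split_symm_inl]
    exact ⟨h1, h2⟩)
  simpa [blkA] using hb

theorem exists_blkA {c : Matrix (Fin n) (Fin n) F}
    (hc : Pat (blockTypes a w)ᶜ c) : ∃ A ∈ lowerSet F w, c = blkA hw a A := by
  set c' := c.submatrix (split a hw).symm (split a hw).symm with hc'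
  have hz : ∀ u v, u ≠ v → (∀ i j, u = Sum.inl i → v = Sum.inl j → i < j) → c' u v = 0 := by
    intro u v huv hlow
    refine hc.2 _ _ ((split a hw).symm.injective.ne huv) fun hb => ?_
    have hne : (blockTypes a w)ᶜ.Nonempty := ⟨a, mem_compl.2 fun h => by
      have := mem_blockTypes.1 h
      rw [rot_val, if_pos le_rfl] at this
      omega⟩
    have ha : (a : Fin n) ∈ (blockTypes a w)ᶜ := mem_compl.2 fun h => by
      have := mem_blockTypes.1 h
      rw [rot_val, if_pos le_rfl] at this
      omega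
    have hlt := hb a ha
    set x := (split a hw).symm u with hx
    set y := (split a hw).symm v with hy
    have hlt' : (rot a y : ℕ) < rot a x := hlt
    rcases Nat.lt_or_ge (rot a x : ℕ) w with hxw | hxw
    · rcases u with i | i
      · rcases v with j | j
        · have := hlow i j rfl rfl
          rw [hx, hy, split_symm_inl, split_symm_inl] at hlt'
          omega
        · rw [hy, split_symm_inr] at hlt'
          omega
      · rw [hx, split_symm_inr] at hxw
        omega
    · obtain ⟨l, hl⟩ := (rotEquiv a).surjective ⟨(rot a x : ℕ) - 1, by omega⟩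
      have hl' : (rot a l : ℕ) = (rot a x : ℕ) - 1 := congrArg Fin.val hl
      have := hb l (mem_compl.2 fun h => by have := mem_blockTypes.1 h; omega)
      rw [rot_lt_iff_between a hlt] at this
      exact this ⟨by omega, by omega⟩
  refine ⟨c'.toBlocks₁₁, ⟨fun i => hc.1 _, fun i j hij =>
    hz _ _ (by simpa using hij.ne) fun i' j' e e' => by
      rw [← Sum.inl_injective e, ← Sum.inl_injective e']; exact hij⟩, ?_⟩
  have e : c = c'.submatrix (split a hw) (split a hw) := by
    ext x y
    simp [hc']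
  rw [e, blkA]
  congr 1
  ext u v
  rcases u with i | i <;> rcases v with j | j
  · rfl
  · simpa using hz _ _ (by simp) (by simp)
  · simpa using hz _ _ (by simp) (by simp)
  · rcases eq_or_ne i j with rfl | hne
    · simpa [hc'] using hc.1 _
    · simpa [Matrix.one_apply_ne hne] using hz _ _ (by simpa using hne) (by simp)

theorem exists_blk {c : Matrix (Fin n) (Fin n) F} (ha : a ∈ S)
    (hb : ∃ b ∈ S, (rot a b : ℕ) + 1 = w) (hc : Pat S c) :
    ∃ A ∈ lowerSet F w, ∃ D, c = blkA hw a A * blkD hw a D := by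
  obtain ⟨b, hbS, hbw⟩ := hb
  set c' := c.submatrix (split a hw).symm (split a hw).symm with hc'
  have hz : ∀ i j, c' (Sum.inl i) (Sum.inr j) = 0 ∧ c' (Sum.inr j) (Sum.inl i) = 0 := by
    intro i j
    refine ⟨hc.2 _ _ ((split a hw).symm.injective.ne (by simp)) fun h => ?_,
      hc.2 _ _ ((split a hw).symm.injective.ne (by simp)) fun h => ?_⟩
    · have := Fin.lt_def.1 (h a ha)
      rw [split_symm_inl, split_symm_inr] at this
      omega
    · have := h b hbS
      rw [rot_lt_iff_between a (h a ha), split_symm_inl, split_symm_inr] at this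
      exact this ⟨by have := i.isLt; omega, by omega⟩
  refine ⟨c'.toBlocks₁₁, ⟨fun i => hc.1 _, fun i j hij => hc.2 _ _
    ((split a hw).symm.injective.ne (by simpa using hij.ne)) fun h => ?_⟩, c'.toBlocks₂₂, ?_⟩
  · have := Fin.lt_def.1 (h a ha)
    rw [split_symm_inl, split_symm_inl] at this
    omega
  · have e : c = c'.submatrix (split a hw) (split a hw) := by
      ext x y
      simp [hc']
    conv_lhs => rw [e]
    rw [blkA, blkD, Matrix.submatrix_mul_equiv, Matrix.fromBlocks_multiply]
    congr 1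
    conv_lhs => rw [← Matrix.fromBlocks_toBlocks c']
    congr 1
    · simp
    · ext i j; simpa [Matrix.toBlocks₁₂] using (hz i j).1
    · ext j i; simpa [Matrix.toBlocks₂₁] using (hz i j).2
    · simp

theorem exists_blkD {c : Matrix (Fin n) (Fin n) F} (ha : a ∈ S)
    (hb : ∃ b ∈ S, (rot a b : ℕ) + 1 = w) (hc : Pat (S ∪ blockTypes a w) c) :
    ∃ D, c = blkD hw a D := by
  obtain ⟨A, hA, D, rfl⟩ := exists_blk hw ha hb (hc.mono subset_union_left)
  refine ⟨D, ?_⟩
  suffices h : A = 1 by
    have e1 : blkA hw a (1 : Matrix (Fin w) (Fin w) F) = 1 := by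
      rw [blkA, Matrix.fromBlocks_one, Matrix.submatrix_one_equiv]
    rw [h, e1, one_mul]
  ext i j
  rcases eq_or_ne i j with rfl | hne
  · rw [hA.1, Matrix.one_apply_eq]
  rw [Matrix.one_apply_ne hne]
  rcases lt_or_gt_of_ne hne with h | h
  · exact hA.2 i j h
  obtain ⟨l, hl⟩ := (rotEquiv a).surjective ⟨(j : ℕ), by have := j.isLt; omega⟩
  have hl' : (rot a l : ℕ) = j := congrArg Fin.val hl
  have hmem : l ∈ S ∪ blockTypes a w := mem_union_right _ (mem_blockTypes.2 (by
    have := i.isLt; have : (j : ℕ) < i := h; omega))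
  have := hc.2 ((split a hw).symm (Sum.inl i)) ((split a hw).symm (Sum.inl j))
    ((split a hw).symm.injective.ne (by simpa using hne)) fun hb' => by
      have := hb' l hmem
      rw [rot_lt_iff_between a (Fin.lt_def.2 (by rw [split_symm_inl, split_symm_inl]; exact h)),
        split_symm_inl, split_symm_inl, hl'] at this
      exact this ⟨le_rfl, h⟩
  simpa [blkA, blkD, Matrix.submatrix_mul_equiv, Matrix.fromBlocks_multiply] using this

theorem pat_blkD_union {D : Matrix (Fin (n - w)) (Fin (n - w)) F} (ha : a ∈ S)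
    (hc : Pat S (blkD hw a D)) : Pat (S ∪ blockTypes a w) (blkD hw a D) := by
  refine ⟨hc.1, fun x y hxy hb => ?_⟩
  by_contra hne
  rcases hc.eq_or_below hne with e | e
  · exact hxy e
  refine hb fun l hl => ?_
  rcases mem_union.1 hl with hl | hl
  · exact e l hl
  obtain ⟨u, rfl⟩ := (split a hw).symm.surjective x
  obtain ⟨v, rfl⟩ := (split a hw).symm.surjective y
  rw [rot_lt_iff_between a (e a ha)]
  simp only [blkD, Matrix.submatrix_apply, Equiv.apply_symm_apply] at hne
  have hl' := mem_blockTypes.1 hl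
  rcases u with i | i <;> rcases v with j | j
  · have h' : i ≠ j := fun h => hxy (by rw [h])
    simp [Matrix.one_apply_ne h'] at hne
  · simp at hne
  · simp at hne
  · rw [split_symm_inr, split_symm_inr]
    omega

/-- The element of `Γ` of a block matrix. -/
noncomputable def mkA (ha : a ∈ S) (hi : ∀ b ∈ S, w ≤ (rot a b : ℕ) + 1)
    (A : Matrix (Fin w) (Fin w) F) (hA : A ∈ lowerSet F w) : Gam F n R t :=
  ⟨(pat_blkA_of_outside hw hA hi).toSL R t ⟨a, ha⟩, Pat.toSL_mem_Gam _ _⟩

section Main

variable (ha : a ∈ S) (hi : ∀ b ∈ S, w ≤ (rot a b : ℕ) + 1) (h0 : 0 < w)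

theorem mkA_val (A : Matrix (Fin w) (Fin w) F) (hA : A ∈ lowerSet F w) :
    (mkA (R := R) (t := t) hw ha hi A hA).1.1 = patMat R t (blkA hw a A) := rfl

theorem mkA_mul (A B : Matrix (Fin w) (Fin w) F) (hA : A ∈ lowerSet F w) (hB : B ∈ lowerSet F w)
    (hAB : A * B ∈ lowerSet F w) :
    mkA (R := R) (t := t) hw ha hi A hA * mkA hw ha hi B hB = mkA hw ha hi (A * B) hAB := by
  refine Subtype.ext (Subtype.ext ?_)
  show patMat R t (blkA hw a A) * patMat R t (blkA hw a B) = patMat R t (blkA hw a (A * B))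
  rw [(pat_blkA_of_outside hw hA hi).patMat_mul ⟨a, ha⟩ (pat_blkA_of_outside hw hB hi), blkA_mul]

include ha in
theorem mem_L₁ (ht : t ≠ 0) {x : Gam F n R t} :
    x ∈ inter (hyp F n R t) (blockTypes a w)ᶜ ↔
      ∃ A, ∃ hA : A ∈ lowerSet F w, x = mkA hw ha hi A hA := by
  have hne : (blockTypes a w)ᶜ.Nonempty :=
    ⟨a, mem_compl.2 fun h => disjoint_left.1 (disjoint_blockTypes hi) h ha⟩
  rw [mem_inter_hyp_iff ht hne]
  constructor
  · rintro ⟨c, hc, hx⟩
    obtain ⟨A, hA, rfl⟩ := exists_blkA hw hc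
    exact ⟨A, hA, Subtype.ext (Subtype.ext hx)⟩
  · rintro ⟨A, hA, rfl⟩
    refine ⟨_, pat_blkA_of_outside hw hA fun l hl => ?_, rfl⟩
    have := mt mem_blockTypes.2 (mem_compl.1 hl)
    omega

include h0 in
theorem pt_mkA_eq_iff (ht : t ≠ 0) {l : Fin n} (hl : l ∈ blockTypes a w)
    {A B : Matrix (Fin w) (Fin w) F} (hA : A ∈ lowerSet F w) (hB : B ∈ lowerSet F w) :
    pt (hyp F n R t) (mkA hw ha hi A hA) l = pt (hyp F n R t) (mkA hw ha hi B hB) l ↔
      (stdW F w ((rot a l : ℕ) + 1)).map (Matrix.toLin' A) =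
        (stdW F w ((rot a l : ℕ) + 1)).map (Matrix.toLin' B) := by
  have hC : A⁻¹ * B ∈ lowerSet F w := lowerSet_mul h0 (lowerSet_inv h0 hA) hB
  have e : (mkA (R := R) (t := t) hw ha hi A hA)⁻¹ * mkA hw ha hi B hB =
      mkA hw ha hi (A⁻¹ * B) hC := by
    rw [inv_mul_eq_iff_eq_mul, mkA_mul hw ha hi A _ hA hC (by
      rw [Matrix.mul_nonsing_inv_cancel_left A B (isUnit_det h0 hA)]; exact hB)]
    congr 1
    exact (Matrix.mul_nonsing_inv_cancel_left A B (isUnit_det h0 hA)).symm
  rw [pt_eq_pt_iff, e, map_stdW_eq_iff h0 hA hB, hyp, Subgroup.mem_subgroupOf, mem_loc_iff]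
  refine ⟨fun ⟨c, hc, hx⟩ i j hj hi' => ?_, fun h => ⟨_, pat_blkA hw hC fun l' hl' i j h1 h2 => ?_, rfl⟩⟩
  · rw [mkA_val] at hx
    obtain rfl := patMat_inj ht hx
    exact pat_block_entries hw hc (by omega) (by omega)
  · rw [mem_singleton.1 hl'] at h1 h2
    exact h i j (by omega) (by omega)

include hw ha hi h0 in
/-- A contraction of the opposite complex contracts the block of the link. -/
theorem contr_block [DecidableEq (Submodule F (Fin w → F))]
    [DecidableEq (Vert (hyp F n R t))] (ht : t ≠ 0) {d M : ℕ}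
    {H₁ : Ch (Submodule F (Fin w → F)) →ₗ[ZMod 2] Ch (Submodule F (Fin w → F))}
    (h : IsContr (OSimp (flagC F w) w) d M H₁) :
    ∃ H', IsContr (Block (hyp F n R t) (inter (hyp F n R t) (blockTypes a w)ᶜ) (blockTypes a w))
      d M H' := by
  classical
  let WA : Matrix (Fin w) (Fin w) F → ℕ → Submodule F (Fin w → F) := fun A r =>
    (stdW F w r).map (Matrix.toLin' A)
  have hrk : ∀ A ∈ lowerSet F w, ∀ r ≤ w, finrank F (WA A r) = r := fun A hA r hr =>
    (LinearEquiv.finrank_map_eq (lowEquiv h0 hA) _).trans (finrank_stdW hr)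
  let idx : ℕ → Fin n := fun r => if hr : r - 1 < n then (rotEquiv a).symm ⟨r - 1, hr⟩ else a
  have hidx : ∀ l ∈ blockTypes a w, idx ((rot a l : ℕ) + 1) = l := fun l hl => by
    simp only [idx, Nat.add_sub_cancel, dif_pos (rot a l).isLt, Fin.eta]
    exact (Equiv.symm_apply_eq _).2 rfl
  have hidx' : ∀ r, 0 < r → r < w → idx r ∈ blockTypes a w ∧ (rot a (idx r) : ℕ) + 1 = r := by
    intro r hr hrw
    have e : rot a (idx r) = ⟨r - 1, by omega⟩ := by
      simp only [idx, dif_pos (show r - 1 < n by omega)]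
      exact (rotEquiv a).apply_symm_apply _
    rw [mem_blockTypes, e]
    simp only
    omega
  let f : Vert (hyp F n R t) → Submodule F (Fin w → F) := fun v =>
    if hv : ∃ A, ∃ hA : A ∈ lowerSet F w, v = pt _ (mkA hw ha hi A hA) v.1
    then WA hv.choose ((rot a v.1 : ℕ) + 1) else ⊥
  let g : Submodule F (Fin w → F) → Vert (hyp F n R t) := fun x =>
    if hx : ∃ A, ∃ _ : A ∈ lowerSet F w, x = WA A (finrank F x)
    then pt _ (mkA hw ha hi hx.choose hx.choose_spec.choose) (idx (finrank F x))
    else pt _ 1 a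
  have hf : ∀ A, ∀ hA : A ∈ lowerSet F w, ∀ l ∈ blockTypes a w,
      f (pt _ (mkA hw ha hi A hA) l) = WA A ((rot a l : ℕ) + 1) := by
    intro A hA l hl
    have hv : ∃ B, ∃ hB : B ∈ lowerSet F w, pt (hyp F n R t) (mkA hw ha hi A hA) l =
        pt _ (mkA hw ha hi B hB) l := ⟨A, hA, rfl⟩
    refine (dif_pos hv).trans ?_
    obtain ⟨hB, e⟩ := hv.choose_spec
    exact ((pt_mkA_eq_iff hw ha hi h0 ht hl hA hB).1 e).symm
  have hg : ∀ A, ∀ hA : A ∈ lowerSet F w, ∀ r, 0 < r → r < w →
      g (WA A r) = pt _ (mkA hw ha hi A hA) (idx r) := by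
    intro A hA r hr hrw
    have hx : ∃ B, ∃ _ : B ∈ lowerSet F w, WA A r = WA B (finrank F (WA A r)) :=
      ⟨A, hA, by rw [hrk A hA r hrw.le]⟩
    refine (dif_pos hx).trans ?_
    have key : ∀ B, ∀ hB : B ∈ lowerSet F w, WA A r = WA B (finrank F (WA A r)) →
        pt (hyp F n R t) (mkA hw ha hi B hB) (idx (finrank F (WA A r))) =
          pt _ (mkA hw ha hi A hA) (idx r) := by
      intro B hB e
      rw [hrk A hA r hrw.le] at e
      rw [hrk A hA r hrw.le]
      obtain ⟨h1, h2⟩ := hidx' r hr hrw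
      exact ((pt_mkA_eq_iff hw ha hi h0 ht h1 hA hB).2 (by rw [h2]; exact e)).symm
    exact key _ _ hx.choose_spec.choose_spec

  refine contr_transfer h f g ?_ ?_
  · rintro σ ⟨x, hx, hσ⟩
    obtain ⟨A, hA, rfl⟩ := (mem_L₁ hw ha hi ht).1 hx
    have hfv : ∀ v ∈ σ, f v = WA A ((rot a v.1 : ℕ) + 1) ∧
        (rot a v.1 : ℕ) + 1 < w := fun v hv => by
      obtain ⟨h1, h2⟩ := hσ v hv
      refine ⟨?_, mem_blockTypes.1 h1⟩
      conv_lhs => rw [h2]
      exact hf A hA v.1 h1
    refine ⟨⟨fun y hy => ?_, fun y hy y' hy' => ?_⟩, fun v hv => ?_⟩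
    · obtain ⟨v, hv, rfl⟩ := mem_image.1 hy
      rw [(hfv v hv).1]
      exact (ovtx_map (e := lowEquiv h0 hA) (fun j _ => map_flagC h0 hA j) _).2
        (ovtx_stdW (Nat.succ_pos _) (hfv v hv).2)
    · obtain ⟨v, hv, rfl⟩ := mem_image.1 hy
      obtain ⟨v', hv', rfl⟩ := mem_image.1 hy'
      rw [(hfv v hv).1, (hfv v' hv').1]
      have hmono : ∀ r r', r ≤ r' → WA A r ≤ WA A r' := fun r r' h =>
        Submodule.map_mono fun u hu i hi' => hu i (by
          simp only [mem_filter, mem_univ, true_and] at hi' ⊢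
          omega)
      exact (le_total ((rot a v.1 : ℕ) + 1) ((rot a v'.1 : ℕ) + 1)).imp (hmono _ _) (hmono _ _)
    · rw [(hfv v hv).1, hg A hA _ (Nat.succ_pos _) (hfv v hv).2, hidx v.1 (hσ v hv).1]
      exact (hσ v hv).2.symm
  · intro τ hτ
    obtain ⟨T, hT, hTc, hτT⟩ := exists_chamber isFlag_flagC hτ
    let T₀ : Finset (Submodule F (Fin w → F)) := (Icc 1 (w - 1)).image (stdW F w)
    have hinj : Set.InjOn (stdW F w) (Icc 1 (w - 1) : Finset ℕ) := fun r hr r' hr' e => by
      simp only [coe_Icc, Set.mem_Icc] at hr hr'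
      rw [← finrank_stdW (F := F) (show r ≤ w by omega),
        ← finrank_stdW (F := F) (show r' ≤ w by omega), e]
    have hT₀ : OSimp (flagC F w) w T₀ := by
      refine ⟨fun y hy => ?_, fun y hy y' hy' => ?_⟩
      · obtain ⟨r, hr, rfl⟩ := mem_image.1 hy
        rw [mem_Icc] at hr
        exact ovtx_stdW (by omega) (by omega)
      · obtain ⟨r, -, rfl⟩ := mem_image.1 hy
        obtain ⟨r', -, rfl⟩ := mem_image.1 hy'
        exact (le_total r r').imp (fun h u hu i hi' => hu i (by
          simp only [mem_filter, mem_univ, true_and] at hi' ⊢; omega)) (fun h u hu i hi' => hu i (by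
          simp only [mem_filter, mem_univ, true_and] at hi' ⊢; omega))
    obtain ⟨e, -, huni, himg⟩ := exists_aut isFlag_flagC flagC_top hT₀
      (by rw [card_image_of_injOn hinj, Nat.card_Icc]; omega) hT hTc
    let A := LinearMap.toMatrix' (e : (Fin w → F) →ₗ[F] (Fin w → F))
    have hentry : ∀ i k : Fin w, i ≤ k → A i k = if i = k then 1 else 0 := by
      intro i k hik
      have hmem : Pi.single k (1 : F) ∈ flagC F w (w - k - 1 + 1) := fun l hl =>
        Pi.single_eq_of_ne (fun e' => hl (by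
          subst e'; simp only [mem_filter, mem_univ, true_and]; have := l.isLt; omega)) _
      have h' := huni (w - k - 1) (by have := k.isLt; omega) _ hmem i (by
        simp only [mem_filter, mem_univ, true_and]; have := k.isLt; have : i.val ≤ k.val := hik; omega)
      simp only [Pi.sub_apply, sub_eq_zero] at h'
      simp only [A, LinearMap.toMatrix'_apply, LinearEquiv.coe_coe]
      rw [h', Pi.single_apply]
    have hA : A ∈ lowerSet F w :=
      ⟨fun i => by simpa using hentry i i le_rfl, fun i k h => by simpa [h.ne] using hentry i k h.le⟩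
    have htoLin : Matrix.toLin' A = (e : (Fin w → F) →ₗ[F] (Fin w → F)) := Matrix.toLin'_toMatrix' _
    have hxv : ∀ x ∈ τ, 0 < finrank F x ∧ finrank F x < w ∧ x = WA A (finrank F x) := by
      intro x hx
      obtain ⟨y, hy, rfl⟩ := mem_image.1 (himg ▸ hτT hx)
      obtain ⟨r, hr, rfl⟩ := mem_image.1 hy
      rw [mem_Icc] at hr
      rw [LinearEquiv.finrank_map_eq, finrank_stdW (show r ≤ w by omega)]
      exact ⟨by omega, by omega, by simp only [WA, htoLin]⟩
    refine ⟨⟨mkA hw ha hi A hA, (mem_L₁ hw ha hi ht).2 ⟨A, hA, rfl⟩, fun v hv => ?_⟩,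
      fun x hx => ?_⟩
    · obtain ⟨x, hx, rfl⟩ := mem_image.1 hv
      obtain ⟨h1, h2, h3⟩ := hxv x hx
      rw [h3, hg A hA _ h1 h2]
      exact ⟨(hidx' _ h1 h2).1, rfl⟩
    · obtain ⟨h1, h2, h3⟩ := hxv x hx
      conv_lhs => rw [h3, hg A hA _ h1 h2, hf A hA _ (hidx' _ h1 h2).1, (hidx' _ h1 h2).2]
      exact h3.symm

end Main

end Vale.Agent.P067.Alld.LinkE
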