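import Vale.Agent.P067.Alld.Defs
import Vale.Agent.P067.Sparse.Homotopy

/-!
P067: duality between cycles and cocycles over `ZMod 2`.
-/

namespace Vale.Agent.P067.Alld.LinkE

open Finset Sparse

/-- If every cycle on `k`-vertex faces is a boundary, every cocycle there is a coboundary. -/
theorem exact_of_fillings {X : Type} [DecidableEq X] {T : Finset (Finset X)} {k : ℕ}
    (h : ∀ z : Ch X, On (· ∈ face T k) z → bd z = 0 →
      ∃ y : Ch X, On (· ∈ face T (k + 1)) y ∧ bd y = z) : Exact T k := by
  intro f hf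
  let S : Submodule (ZMod 2) (Ch X) := Finsupp.supported (ZMod 2) (ZMod 2) ↑(face T k)
  let L : Ch X →ₗ[ZMod 2] ZMod 2 := Finsupp.linearCombination (ZMod 2) f
  let B : S →ₗ[ZMod 2] Ch X := bd.comp S.subtype
  have hbd : ∀ (g : Finset X → ZMod 2) (σ : Finset X),
      Finsupp.linearCombination (ZMod 2) g (bd (Finsupp.single σ 1)) = delta g σ := fun g σ => by
    simp [bd_single, delta]
  have hker : L.comp S.subtype ∈ (LinearMap.ker B).dualAnnihilator := by
    rw [Submodule.mem_dualAnnihilator]
    rintro ⟨z, hz⟩ hz0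
    obtain ⟨y, hy, rfl⟩ := h z (fun σ hσ => (Finsupp.mem_supported _ _).1 hz hσ) hz0
    show L (bd y) = 0
    exact (eq_of_on (L := L.comp bd) (L' := 0) (fun τ hτ => by
      simp only [LinearMap.comp_apply, L, hbd, hf τ hτ, LinearMap.zero_apply]) hy)
  rw [← LinearMap.range_dualMap_eq_dualAnnihilator_ker] at hker
  obtain ⟨a, ha⟩ := hker
  refine ⟨fun τ => a (Finsupp.single τ 1), fun σ hσ => ?_⟩
  have hmem : Finsupp.single σ (1 : ZMod 2) ∈ S := Finsupp.single_mem_supported _ _ (mem_coe.2 hσ)
  have e := LinearMap.congr_fun ha ⟨_, hmem⟩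
  simp only [LinearMap.dualMap_apply, LinearMap.comp_apply, Submodule.coe_subtype, L,
    Finsupp.linearCombination_single, one_smul, B] at e
  rw [← e, bd_single, map_sum, delta]

end Vale.Agent.P067.Alld.LinkE
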