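import Vale.Agent.P067.Alld.Defs
import Vale.Agent.P067.Sparse.Average
import Vale.Agent.P067.Full.Opp.Join

/-!
P067, module E: from a bounded contraction and a transitive symmetry group to `Expands`; transfer of
contractions along partial bijections of the vertices.
-/

set_option linter.unusedSectionVars false

namespace Vale.Agent.P067.Alld.LinkE

open Finset Vale.Agent.P067.Sparse
open Vale.Agent.P067.Full.Opp (IsContr)

section Expands

variable {X : Type} [Fintype X] [DecidableEq X] {T : Finset (Finset X)}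

theorem mem_face_iff {k : ℕ} {σ : Finset X} : σ ∈ face T k ↔ σ ∈ faces T k := by
  simp only [face, faces, mem_biUnion, mem_powersetCard, mem_filter, mem_univ, true_and]
  exact ⟨fun ⟨t, ht, hs, hc⟩ => ⟨hc, t, ht, hs⟩, fun ⟨hc, t, ht, hs⟩ => ⟨t, ht, hs, hc⟩⟩

theorem faces_eq_face (k : ℕ) : faces T k = face T k := Finset.ext fun _ => mem_face_iff.symm

/-- Restriction of a cochain. -/
def res (T : Finset (Finset X)) (k : ℕ) (f : Finset X → ZMod 2) : Cochain T k := fun σ => f σ.1

theorem cbd_res (k : ℕ) (f : Finset X → ZMod 2) : cbd T k (res T k f) = res T (k + 1) (delta f) := by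
  funext τ
  obtain ⟨hc, t, ht, hst⟩ : τ.1.card = k + 1 ∧ ∃ t ∈ T, τ.1 ⊆ t := by
    simpa [faces] using τ.2
  rw [cbd_eq_ext, bd_single, map_sum]
  refine sum_congr rfl fun x hx => ?_
  exact ext_single (res T k f) ⟨τ.1.erase x, by
    simp only [faces, mem_filter, mem_univ, true_and]
    exact ⟨by rw [card_erase_of_mem hx, hc, Nat.add_sub_cancel], t, ht,
      (erase_subset _ _).trans hst⟩⟩

theorem mass_eq (k : ℕ) (f : Finset X → ZMod 2) :
    mass T k f = ∑ σ ∈ csupp (res T k f), Sparse.wt T σ := by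
  rw [mass, csupp, sum_map]
  refine (sum_bij (fun σ _ => σ.1) (fun σ hσ => ?_) (fun _ _ _ _ h => Subtype.ext h)
    (fun σ hσ => ?_) fun σ _ => rfl).symm
  · exact mem_filter.2 ⟨mem_face_iff.2 σ.2, (mem_filter.1 hσ).2⟩
  · exact ⟨⟨σ, mem_face_iff.1 (mem_filter.1 hσ).1⟩,
      mem_filter.2 ⟨mem_univ _, (mem_filter.1 hσ).2⟩, rfl⟩

theorem mass_zero_le (f : Finset X → ZMod 2) : mass T 0 f ≤ T.card := by
  refine (sum_le_sum_of_subset (filter_subset _ _)).trans ?_
  refine (sum_le_sum_of_subset (t := {∅}) fun σ hσ => ?_).trans ?_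
  · obtain ⟨t, -, ht⟩ := mem_biUnion.1 hσ
    exact mem_singleton.2 (card_eq_zero.1 (mem_powersetCard.1 ht).2)
  · rw [sum_singleton]
    exact card_filter_le _ _

/-- Averaging a bounded contraction over a group that is transitive on the top faces. -/
theorem expands_of_contraction {c M k : ℕ} (hT : ∀ t ∈ T, t.card = c) (hk : k < c)
    (htr : ∀ t ∈ T, ∀ t' ∈ T, ∃ e ∈ autF T, t.image e = t') {Hp Hc : Ch X →ₗ[ZMod 2] Ch X}
    (h : Contraction T k M Hp Hc) : Expands T k (1 / (2 ^ c * ((M : ℝ) + 1))) := by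
  classical
  intro f
  have hpos : (0 : ℝ) < 2 ^ c * ((M : ℝ) + 1) := by positivity
  suffices hnat : ∃ a : Finset X → ZMod 2,
      mass T k (f + delta a) ≤ 2 ^ c * (M + 1) * mass T (k + 1) (delta f) by
    obtain ⟨a, ha⟩ := hnat
    refine ⟨a, ?_⟩
    rw [div_mul_eq_mul_div, one_mul, div_le_iff₀ hpos, mul_comm _ (2 ^ c * ((M : ℝ) + 1))]
    exact_mod_cast ha
  rcases T.eq_empty_or_nonempty with rfl | hne
  · exact ⟨0, by simp [mass, face]⟩
  rcases Nat.eq_zero_or_pos k with rfl | hk0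
  · refine ⟨0, ?_⟩
    by_cases h0 : f ∅ = 0
    · refine (le_of_eq ?_).trans (Nat.zero_le _)
      refine sum_eq_zero fun σ hσ => absurd (mem_filter.1 hσ).2 ?_
      obtain ⟨t, -, ht⟩ := mem_biUnion.1 (mem_filter.1 hσ).1
      simp [card_eq_zero.1 (mem_powersetCard.1 ht).2, delta, h0]
    · have hall : ∀ σ ∈ face T 1, delta f σ ≠ 0 := fun σ hσ => by
        obtain ⟨t, -, ht⟩ := mem_biUnion.1 hσ
        obtain ⟨x, rfl⟩ := card_eq_one.1 (mem_powersetCard.1 ht).2
        simpa [delta] using h0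
      have hmass : mass T 1 (delta f) = c * T.card := by
        rw [mass, filter_true_of_mem hall]
        have := sum_wt (F := T) (d := c - 1) (fun t ht => by rw [hT t ht]; omega) 1
        rw [Nat.choose_one_right, show c - 1 + 1 = c by omega, faces_eq_face] at this
        exact this
      calc mass T 0 (f + delta 0) ≤ 1 * T.card := by simpa using mass_zero_le _
        _ ≤ (2 ^ c * (M + 1) * c) * T.card :=
            Nat.mul_le_mul_right _ (Nat.one_le_iff_ne_zero.2 (Nat.mul_ne_zero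
              (Nat.mul_ne_zero (by simp) (by omega)) (by omega)))
        _ = _ := by rw [hmass]; ring
  · obtain ⟨j, rfl⟩ : ∃ j, k = j + 1 := ⟨k - 1, by omega⟩
    obtain ⟨a, ha⟩ := exists_cobound (d := c - 1) hne (fun t ht => by rw [hT t ht]; omega) htr h
      (res T (j + 1) f)
    refine ⟨fun σ => if h : σ ∈ faces T j then a ⟨σ, h⟩ else 0, ?_⟩
    set a' : Finset X → ZMod 2 := fun σ => if h : σ ∈ faces T j then a ⟨σ, h⟩ else 0 with ha'
    have hres : res T j a' = a := funext fun σ => by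
      simp only [res, ha', dif_pos σ.2, Subtype.coe_eta]
    have hsub : res T (j + 1) (f + delta a') = res T (j + 1) f - cbd T j a := by
      rw [← hres, cbd_res, ZModModule.sub_eq_add]
      rfl
    rw [mass_eq, mass_eq, hsub, ← cbd_res]
    refine ha.trans ?_
    rw [← mul_assoc]
    refine Nat.mul_le_mul_right _ (Nat.mul_le_mul ?_ (Nat.le_succ M))
    exact (Nat.choose_le_two_pow _ _).trans (le_of_eq (by congr 1; omega))

end Expands

section Transfer

variable {X Y : Type} [DecidableEq X] [DecidableEq Y]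

theorem bd_push_on {f : X → Y} {z : Ch X} (hz : On (fun σ => Set.InjOn f σ) z) :
    bd (push f z) = push f (bd z) := by
  refine eq_of_on (L := bd ∘ₗ push f) (L' := push f ∘ₗ bd) (fun σ hσ => ?_) hz
  simp only [LinearMap.comp_apply, push_single, bd_single, map_sum]
  rw [sum_image hσ]
  refine sum_congr rfl fun x hx => ?_
  congr 1
  ext y
  simp only [mem_erase, mem_image]
  exact ⟨fun ⟨hne, z', hz', e⟩ => ⟨z', ⟨fun h => hne (h ▸ e.symm), hz'⟩, e⟩,
    fun ⟨z', ⟨hne, hz'⟩, e⟩ => ⟨fun h => hne (hσ hz' hx (e.trans h)), z', hz', e⟩⟩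

/-- A contraction carried along maps that are inverse on the faces. -/
theorem contr_transfer {P : Finset X → Prop} {P' : Finset Y → Prop} {d M : ℕ}
    {H : Ch X →ₗ[ZMod 2] Ch X} (h : IsContr P d M H)
    (f : Y → X) (g : X → Y)
    (h1 : ∀ σ, P' σ → P (σ.image f) ∧ ∀ v ∈ σ, g (f v) = v)
    (h2 : ∀ σ, P σ → P' (σ.image g) ∧ ∀ x ∈ σ, f (g x) = x) :
    ∃ H', IsContr P' d M H' := by
  refine ⟨push g ∘ₗ H ∘ₗ push f, fun σ hσ hc => ?_⟩
  obtain ⟨hPσ, hgf⟩ := h1 σ hσ
  have hinj : Set.InjOn f σ := fun v hv w hw e => by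
    rw [← hgf v hv, ← hgf w hw, e]
  have hginj : ∀ τ, P τ → Set.InjOn g τ := fun τ hτ v hv w hw e => by
    rw [← (h2 τ hτ).2 v hv, ← (h2 τ hτ).2 w hw, e]
  have hcard : (σ.image f).card = σ.card := card_image_of_injOn hinj
  obtain ⟨hon, hM, hid⟩ := h (σ.image f) hPσ (hcard.le.trans hc)
  simp only [LinearMap.comp_apply, push_single]
  have hcomm : push f (bd (Finsupp.single σ (1 : ZMod 2))) = bd (Finsupp.single (σ.image f) 1) := by
    rw [← push_single f σ]
    exact (bd_push_on (On.single hinj)).symm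
  refine ⟨fun τ hτ => ?_, ?_, ?_⟩
  · obtain ⟨τ', hτ', rfl⟩ := mem_support_push hτ
    obtain ⟨hP', hc'⟩ := hon τ' hτ'
    exact ⟨(h2 τ' hP').1, by rw [card_image_of_injOn (hginj τ' hP'), hc', hcard]⟩
  · exact ((card_le_card Finsupp.mapDomain_support).trans card_image_le).trans hM
  · rw [bd_push_on (hon.mono fun τ hτ => hginj τ hτ.1), hcomm, ← map_add, hid, push_single,
      image_image]
    congr 1
    exact (image_congr fun v hv => hgf v hv).trans image_id

end Transfer

end Vale.Agent.P067.Alld.LinkE
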