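import Vale.Agent.P067.Alld.Stmt
import Vale.Agent.P067.Alld.E.Block

/-!
P067, module E: the links of `K_m` are coboundary expanders, with a constant independent of `p`, `m`.
-/

set_option linter.unusedSectionVars false

namespace Vale.Agent.P067.Alld.LinkE

open Finset Vale.Agent.P067.Sparse
open Vale.Agent.P067.Full.Opp (IsContr IsFlag OSimp exists_contr_opp)

theorem rot_self {n : ℕ} (a : Fin n) : (rot a a : ℕ) + 1 = n := by
  rw [rot_val, if_pos le_rfl]
  have := a.isLt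
  omega

/-- A long gap between cyclically consecutive types. -/
theorem exists_gap {n d : ℕ} {S : Finset (Fin n)} (hS : S.Nonempty) (hd : S.card ≤ d)
    (hn : (d + 1) * (d + 2) ≤ n) :
    ∃ (a : Fin n) (w : ℕ), a ∈ S ∧ w ≤ n ∧ d + 2 ≤ w ∧ (∀ b ∈ S, w ≤ (rot a b : ℕ) + 1) ∧
      ∃ b ∈ S, (rot a b : ℕ) + 1 = w := by
  classical
  obtain ⟨j, hj, hfree⟩ : ∃ j < d + 1, ∀ b ∈ S, (b : ℕ) / (d + 2) ≠ j := by
    by_contra hno
    push Not at hno
    have hsub : range (d + 1) ⊆ S.image fun b : Fin n => (b : ℕ) / (d + 2) := fun j hj => by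
      obtain ⟨b, hb, e⟩ := hno j (mem_range.1 hj)
      exact mem_image.2 ⟨b, hb, e⟩
    have := (card_le_card hsub).trans card_image_le
    rw [card_range] at this
    omega
  have hjn : (j + 1) * (d + 2) ≤ n := le_trans (Nat.mul_le_mul_right _ hj) hn
  rw [add_mul, one_mul] at hjn
  have hfree' : ∀ b ∈ S, (b : ℕ) < j * (d + 2) ∨ j * (d + 2) + (d + 2) ≤ b := fun b hb => by
    by_contra hno
    exact hfree b hb (Nat.div_eq_of_lt_le (by omega) (by rw [add_mul, one_mul]; omega))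
  let j₀ : Fin n := ⟨j * (d + 2), by omega⟩
  have hj₀ : (j₀ : ℕ) = j * (d + 2) := rfl
  obtain ⟨a, ha, hmin⟩ := exists_min_image S (fun s => (rot s j₀ : ℕ)) hS
  obtain ⟨b, hb, hbmin⟩ := exists_min_image S (fun s => (rot a s : ℕ)) hS
  refine ⟨a, (rot a b : ℕ) + 1, ha, ?_, ?_, fun c hc => ?_, b, hb, rfl⟩
  · exact (rot a b).isLt
  · have h1 := hmin b hb
    have h2 := hfree' a ha
    have h3 := hfree' b hb
    simp only [rot_val, hj₀] at h1 ⊢
    have := a.isLt; have := b.isLt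
    split_ifs at h1 ⊢ <;> omega
  · have := hbmin c hc
    omega

theorem linkExpands : LinkExpandsStmt := by
  classical
  intro d₀
  obtain ⟨d, hd⟩ : ∃ d, d = d₀ + 1 := ⟨_, rfl⟩
  rw [← hd]
  refine ⟨(d + 1) * (d + 2), fun n hn => ?_⟩
  have hall : ∀ w : ℕ, ∃ M q₀ : ℕ, d + 2 ≤ w → ∀ (K V : Type) [Field K] [AddCommGroup V]
      [Module K V] [FiniteDimensional K V] [DecidableEq (Submodule K V)]
      (E : ℕ → Submodule K V), IsFlag E w → q₀ < Nat.card K →
      ∃ H, IsContr (OSimp E w) d M H := fun w => by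
    by_cases h : d + 2 ≤ w
    · obtain ⟨M, q₀, h'⟩ := exists_contr_opp w d h
      exact ⟨M, q₀, fun _ => h'⟩
    · exact ⟨0, 0, fun h' => absurd h' h⟩
  choose M q₀ hM using hall
  refine ⟨1 / (2 ^ n * (((∑ w ∈ range (n + 1), M w : ℕ) : ℝ) + 1)), by positivity,
    (∑ w ∈ range (n + 1), q₀ w) + 1, fun p _ hp m hm s k hs hs1 hsk => ?_⟩
  obtain ⟨g, hsg⟩ := exists_eq_image (H := hyp (ZMod p) n (Rm p m) (tm p m)) hs
  set S := s.image Sigma.fst with hS
  have hScard : s.card = S.card := by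
    conv_lhs => rw [hsg]
    exact card_image_of_injective _ (pt_injective g)
  have hSne : S.Nonempty := (card_pos.1 hs1).image _
  have hpos : d + 1 ≤ (d + 1) * (d + 2) := Nat.le_mul_of_pos_right _ (by omega)
  obtain ⟨a, w, ha, hwn, hw2, hi, hb⟩ := exists_gap (d := d) hSne (by omega) hn
  have ht : tm p m ≠ 0 := by
    intro h
    rw [tm, AdjoinRoot.root, AdjoinRoot.mk_eq_zero] at h
    have := Polynomial.natDegree_le_of_dvd h Polynomial.X_ne_zero
    rw [Polynomial.natDegree_X_pow, Polynomial.natDegree_X] at this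
    omega
  have hcard : Nat.card (ZMod p) = p := Nat.card_zmod p
  obtain ⟨H₁, hH₁⟩ := hM w hw2 (ZMod p) (Fin w → ZMod p) (flagC (ZMod p) w) isFlag_flagC (by
    rw [hcard]
    have : q₀ w ≤ ∑ w ∈ range (n + 1), q₀ w :=
      single_le_sum (fun i _ => Nat.zero_le _) (mem_range.2 (Nat.lt_succ_of_le hwn))
    omega)
  obtain ⟨H₂, hH₂⟩ := contr_block hwn ha hi (by omega) ht hH₁
  have hcomm : ∀ x ∈ inter (hyp (ZMod p) n (Rm p m) (tm p m)) (blockTypes a w)ᶜ,
      ∀ y ∈ inter (hyp (ZMod p) n (Rm p m) (tm p m)) (S ∪ blockTypes a w), x * y = y * x := by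
    intro x hx y hy
    obtain ⟨A, hA, rfl⟩ := (mem_L₁ hwn ha hi ht).1 hx
    obtain ⟨c, hc, hy⟩ := (mem_inter_hyp_iff ht (hSne.mono subset_union_left) y).1 hy
    obtain ⟨D, rfl⟩ := exists_blkD hwn ha hb hc
    refine Subtype.ext (Subtype.ext ?_)
    show patMat (Rm p m) (tm p m) (blkA hwn a A) * y.1.1 = y.1.1 * patMat _ _ (blkA hwn a A)
    rw [hy, (pat_blkA_of_outside hwn hA hi).patMat_mul hSne (hc.mono subset_union_left),
      (hc.mono subset_union_left).patMat_mul hSne (pat_blkA_of_outside hwn hA hi), blk_comm]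
  have hdec : ∀ u ∈ inter (hyp (ZMod p) n (Rm p m) (tm p m)) S, ∃ x ∈ inter (hyp (ZMod p) n (Rm p m) (tm p m)) (blockTypes a w)ᶜ,
      ∃ y ∈ inter (hyp (ZMod p) n (Rm p m) (tm p m)) (S ∪ blockTypes a w), u = x * y := by
    intro u hu
    obtain ⟨c, hc, hx⟩ := (mem_inter_hyp_iff ht hSne u).1 hu
    obtain ⟨A, hA, D, rfl⟩ := exists_blk hwn ha hb hc
    have hL : mkA hwn ha hi A hA ∈ inter (hyp (ZMod p) n (Rm p m) (tm p m)) (blockTypes a w)ᶜ :=
      (mem_L₁ hwn ha hi ht).2 ⟨A, hA, rfl⟩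
    set x := mkA (R := Rm p m) (t := tm p m) hwn ha hi A hA with hxdef
    refine ⟨x, hL, x⁻¹ * u, ?_, (mul_inv_cancel_left x u).symm⟩
    have hS' : x⁻¹ * u ∈ inter (hyp (ZMod p) n (Rm p m) (tm p m)) S := by
      refine mul_mem (inv_mem ?_) hu
      exact mem_inter.2 fun l hl => mem_inter.1 hL l
        (mem_compl.2 (disjoint_right.1 (disjoint_blockTypes hi) hl))
    obtain ⟨e, he, hxe⟩ := (mem_inter_hyp_iff ht hSne _).1 hS'
    have heq : patMat (Rm p m) (tm p m) (blkA hwn a A * e) =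
        patMat (Rm p m) (tm p m) (blkA hwn a A * blkD hwn a D) := by
      rw [← (pat_blkA_of_outside hwn hA hi).patMat_mul hSne he, ← hxe, ← hx, ← mkA_val hwn ha hi A hA]
      show x.1.1 * (x⁻¹ * u).1.1 = u.1.1
      rw [← Matrix.SpecialLinearGroup.coe_mul, ← Subgroup.coe_mul, mul_inv_cancel_left]
    have hunit : IsUnit (blkA hwn a A).det := by
      rw [(pat_blkA_of_outside hwn hA hi).det hSne]
      exact isUnit_one
    have heD : e = blkD hwn a D := by
      have := congrArg (fun c => (blkA hwn a A)⁻¹ * c) (patMat_inj ht heq)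
      simpa [Matrix.nonsing_inv_mul_cancel_left _ _ hunit] using this
    refine (mem_inter_hyp_iff ht (hSne.mono subset_union_left) _).2 ⟨e, ?_, hxe⟩
    subst heD
    exact pat_blkD_union hwn ha he
  obtain ⟨H₃, hH₃⟩ := contr_link_of_block (J := blockTypes a w)
    (L₁ := inter (hyp (ZMod p) n (Rm p m) (tm p m)) (blockTypes a w)ᶜ)
    (L₂ := inter (hyp (ZMod p) n (Rm p m) (tm p m)) (S ∪ blockTypes a w))
    (disjoint_blockTypes hi) le_rfl le_rfl hcomm hdec hH₂
  have h := link_expands (g := g) (hH₃.mono le_rfl (single_le_sum (f := M)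
    (fun i _ => Nat.zero_le _) (mem_range.2 (Nat.lt_succ_of_le hwn)))) (k := k) (by omega)
    (by omega)
  rw [ktops, hsg]
  exact h

end Vale.Agent.P067.Alld.LinkE
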